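import Vale.Agent.P181.TL.Defs

set_option autoImplicit false

/-!
# P181, MR: several nearly equal long rows, `b ≥ 200 a`: the literals

`mu = tl lam` are the rows below the first one. The first `R ≥ 2` rows of `mu` are long, `E` columns
of height `R` are used to separate the letters (the design `DesM`), `eta` is what remains of `mu`.
Main letters: block `h`, class `k` in the block, position `p`; frames: block `h`, label `p`.
-/

open MvPolynomial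

namespace Vale.Agent.P181.MR

open Vale.Agent.P181.T4 (HW)
open Vale.Agent.P181.H280 (plethMult)
open Vale.Agent.P181.H463 (gt)
open Vale.Agent.P181.SZ
open Vale.Agent.P181.TL (KK)

/-- **[ORB]** the trace lemma: a polynomial which is non-zero at exactly one point of an orbit. -/
def OrbM : Prop := ∀ (m : ℕ) (σ : Type) [Fintype σ] [DecidableEq σ] (c r : σ → ℕ)
  (mu rho : Fin m → ℕ) (P : MvPolynomial (Fin m × σ) ℂ) (x : Fin m × σ → ℂ) (g : ℕ),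
  P ∈ KK m σ r rho → eval x P ≠ 0 →
  (∀ e : Equiv.Perm σ, (∀ j, c (e j) + r (e j) = c j + r j) →
    (∀ j, r (e j) = r j) ∧
      (e ≠ 1 → eval (fun p : Fin m × σ => x (p.1, e p.2)) P = 0)) →
  Fintype.card {e : Equiv.Perm σ // ∀ j, c (e j) + r (e j) = c j + r j} ≤ g →
  Module.finrank ℂ (KK m σ c mu) ≤
    g * Module.finrank ℂ (PK m σ (fun j => c j + r j) (fun i => mu i + rho i))

/-- The letters: main letters (block, class in the block, position) and frames (block, label). -/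
abbrev Lt (h B ν : ℕ) : Type := (Fin h × Fin B × Fin ν) ⊕ (Fin h × Fin ν)

/-- The degrees of the design polynomial. -/
def rr (M h B ν : ℕ) : Lt h B ν → ℕ := Sum.elim (fun _ => M) (fun _ => B * (ν - 1))

/-- **[DES]** the design polynomial: `E = h B ν M` columns of height `R`. -/
def DesM : Prop := ∀ (m R M h B ν : ℕ), 2 ≤ R → R ≤ m → ν = (R - 1) * M + 1 →
  ∃ (P : MvPolynomial (Fin m × Lt h B ν) ℂ) (x : Fin m × Lt h B ν → ℂ),
    P ∈ KK m (Lt h B ν) (rr M h B ν) (fun i => if (i : ℕ) < R then h * B * ν * M else 0) ∧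
    eval x P ≠ 0 ∧
    ∀ e : Equiv.Perm (Lt h B ν), (∀ y, e (Sum.inr y) = Sum.inr y) →
      (∀ z : Fin h × Fin B × Fin ν, ∃ p, e (Sum.inl z) = Sum.inl (z.1, z.2.1, p)) → e ≠ 1 →
      eval (fun p : Fin m × Lt h B ν => x (p.1, e p.2)) P = 0

/-- **[BAL]** Kostka numbers of contents flatter than the balanced content of `n` letters. -/
def BalM : Prop := ∀ (m n : ℕ) (σ : Type) [Fintype σ] [DecidableEq σ] (c : σ → ℕ) (S : Finset σ)
  (eta : Fin m → ℕ), Antitone eta → 0 < n → S.card = n → ∑ j, c j = ∑ i, eta i →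
  (∀ i, i ∉ S → ∀ j ∈ S, c i ≤ c j) → (∀ j, n * c j ≤ ∑ i, eta i) →
  gt m n eta ≤ ((∑ i, eta i) + n - 1).choose (n - 1) * Module.finrank ℂ (KK m σ c eta)

/-- **[LOW]** the lower bound, from [ORB], [DES], [BAL], `LowerS`, `TransS`. -/
def LowM : Prop := ∀ (a b m R M h B ν d E F s e l : ℕ) (lam : Fin (m + 1) → ℕ)
  (eta : Fin m → ℕ), ∑ i, lam i = a * b → Antitone eta →
  (∀ i, tl lam i = eta i + if (i : ℕ) < R then E else 0) →
  2 ≤ R → R ≤ m → 1 ≤ M → 1 ≤ h → 1 ≤ B → ν = (R - 1) * M + 1 → d = h * B → E = d * ν * M →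
  F = h * ν → 2 ≤ d → e < d → l < ν →
  ∑ i, eta i = ν * (d * s + ∑ i ∈ Finset.range d, i + e) + (∑ i ∈ Finset.range F, i + l) →
  d ≤ s → F + ν ≤ s → s + d + M < B * (ν - 1) → B * (ν - 1) + F + ν ≤ a →
  3 * (d * ν + F) ≤ b →
  gt m (ν * (d / 2)) eta ≤
    ((∑ i, eta i) + ν * (d / 2) - 1).choose (ν * (d / 2) - 1) * ν.factorial ^ d *
      plethMult b a (m + 1) lam

/-- **[HALF]** taking off at most half of the gap after row `R` (Weyl's formula). -/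
def HalfM : Prop := ∀ (m R a E : ℕ) (mu eta : Fin m → ℕ), Antitone eta → R ≤ m → m ≤ a →
  (∀ i, mu i = eta i + if (i : ℕ) < R then E else 0) →
  (∀ i : Fin m, (i : ℕ) < R → E ≤ eta i ∧ ∀ j : Fin m, R ≤ (j : ℕ) → E + eta j ≤ eta i) →
  gt m a mu ≤ 2 ^ (R * a) * gt m a eta

/-- **[PAR]** the parameters (pure arithmetic; `M = X ^ 3`). `w` boxes below row one. -/
def ParM : Prop := ∀ (a b X R w : ℕ), 2 ≤ X → X ^ 40 ≤ a → 200 * a ≤ b → b ≤ X * a → 2 ≤ R →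
  R ≤ X ^ 2 → 100 * w ≤ a * b → a ^ 2 ≤ X * w →
  ∃ M h B ν d E F s e l : ℕ, 1 ≤ M ∧ 1 ≤ h ∧ 1 ≤ B ∧ ν = (R - 1) * M + 1 ∧ d = h * B ∧
    E = d * ν * M ∧ F = h * ν ∧ 2 ≤ d ∧ e < d ∧ l < ν ∧
    w = R * E + (ν * (d * s + ∑ i ∈ Finset.range d, i + e) + (∑ i ∈ Finset.range F, i + l)) ∧
    d ≤ s ∧ F + ν ≤ s ∧ s + d + M < B * (ν - 1) ∧ B * (ν - 1) + F + ν ≤ a ∧
    3 * (d * ν + F) ≤ b ∧ E ≤ X ^ 4 * a ∧ ν ≤ X ^ 6 ∧ b ≤ 12 * (ν * (d / 2)) ∧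
    8 * (ν * (d / 2)) ≤ b ∧ d * ν ≤ 3 * (ν * (d / 2))

/-- **[NUM]** the final inequality (`n = ν (d / 2)` letters, `t` boxes, `n₀` the length of the long
rows). -/
def NumM : Prop := ∃ a₀ : ℕ, ∀ (a b X R n d ν t n₀ : ℕ), a₀ ≤ a → 2 ≤ X → X ^ 40 ≤ a →
  200 * a ≤ b → b ≤ X * a → 2 ≤ R → R ≤ X ^ 2 → b ≤ 12 * n → 8 * n ≤ b → d * ν ≤ 3 * n →
  ν ≤ X ^ 6 → 100 * t ≤ a * b → a ^ 2 ≤ 2 * X * n₀ →
  ((a * b + 1 : ℕ) : ℝ) ^ a * 2 ^ (R * a) * ((t + n - 1).choose (n - 1) : ℝ) *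
    (ν.factorial : ℝ) ^ d ≤ (1 + (n₀ : ℝ) / n) ^ (R * (n - a))

/-- **[MAIN]** from all of the above and `T4.plethMult_le_pow`, `up_stmt`, `gt_growth_rows`. -/
def MainM : Prop := ∃ a₀ : ℕ, ∀ (a b X R m : ℕ) (lam : Fin (m + 1) → ℕ), a₀ ≤ a → Antitone lam →
  ∑ i, lam i = a * b → m ≤ a → 2 ≤ X → X ^ 40 ≤ a → 200 * a ≤ b → b ≤ X * a → 2 ≤ R → R ≤ m →
  100 * ∑ i, tl lam i ≤ a * b →
  (∀ i : Fin m, (i : ℕ) < R → a ^ 2 ≤ X * tl lam i ∧
    ∀ j : Fin m, R ≤ (j : ℕ) → a ^ 2 + X * tl lam j ≤ X * tl lam i) →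
  plethMult a b (m + 1) lam ≤ plethMult b a (m + 1) lam

/-- **[FIN]** the polylogarithmic form (`lam` has at least `R + 1 ≥ 3` rows; the gap is after row
`R` of `tl lam`, i.e. after row `R + 1` of `lam`). -/
def FinM : Prop := ∀ C₀ c₀ : ℝ, 0 < C₀ → 0 ≤ c₀ → ∃ C : ℝ, 0 < C ∧
  ∀ (a b R m : ℕ) (lam : Fin (m + 1) → ℕ), Antitone lam → ∑ i, lam i = a * b → C * a ≤ b →
  2 ≤ R → R ≤ m → 100 * ∑ i, tl lam i ≤ a * b →
  (∀ i : Fin m, (i : ℕ) < R → (a : ℝ) ^ 2 ≤ C₀ * (1 + Real.log a) ^ c₀ * tl lam i ∧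
    ∀ j : Fin m, R ≤ (j : ℕ) →
      (a : ℝ) ^ 2 ≤ C₀ * (1 + Real.log a) ^ c₀ * ((tl lam i : ℝ) - tl lam j)) →
  plethMult a b (m + 1) lam ≤ plethMult b a (m + 1) lam

/-- **[TAIL]** the final form: for `b ≥ C a` and a dominating first row every tail below row two of
at least `a` times a polylogarithm is fine. -/
def TailM : Prop := ∃ (C : ℝ) (c : ℕ), 0 < C ∧ ∀ (a b n : ℕ) (lam : Fin (n + 2) → ℕ),
  Antitone lam → ∑ i, lam i = a * b → C * a ≤ b → C * ∑ i, (tl lam i : ℝ) ≤ a * b →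
  C * (1 + Real.log a) ^ c * a ≤ ∑ i : Fin n, (lam i.succ.succ : ℝ) →
  plethMult a b (n + 2) lam ≤ plethMult b a (n + 2) lam

end Vale.Agent.P181.MR
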